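import Vale.Agent.Lib.P328.Cases.C221

/-! Kernel checks for the row sums (2, 2, 2) (P328).  One theorem per composition (keeps the memory of the
kernel small); the modules `Cases.C*` import each other in a chain ON PURPOSE, so that they are never
compiled in parallel. -/

namespace Vale.Agent.Lib.P328

set_option maxRecDepth 100000 in
theorem c222_0 : checkSf 6 [1, 1, 1, 1, 1, 1] 2 = true := by decide +kernel

set_option maxRecDepth 100000 in
theorem c222_1 : checkSf 5 [2, 1, 1, 1, 1] 2 = true := by decide +kernel

set_option maxRecDepth 100000 in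
theorem c222_2 : checkSf 5 [1, 2, 1, 1, 1] 2 = true := by decide +kernel

set_option maxRecDepth 100000 in
theorem c222_3 : checkSf 4 [3, 1, 1, 1] 2 = true := by decide +kernel

set_option maxRecDepth 100000 in
theorem c222_4 : checkSf 5 [1, 1, 2, 1, 1] 2 = true := by decide +kernel

set_option maxRecDepth 100000 in
theorem c222_5 : checkSf 4 [2, 2, 1, 1] 2 = true := by decide +kernel

set_option maxRecDepth 100000 in
theorem c222_6 : checkSf 4 [1, 3, 1, 1] 2 = true := by decide +kernel

set_option maxRecDepth 100000 in
theorem c222_7 : checkSf 3 [4, 1, 1] 2 = true := by decide +kernel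

set_option maxRecDepth 100000 in
theorem c222_8 : checkSf 5 [1, 1, 1, 2, 1] 2 = true := by decide +kernel

set_option maxRecDepth 100000 in
theorem c222_9 : checkSf 4 [2, 1, 2, 1] 2 = true := by decide +kernel

set_option maxRecDepth 100000 in
theorem c222_10 : checkSf 4 [1, 2, 2, 1] 2 = true := by decide +kernel

set_option maxRecDepth 100000 in
theorem c222_11 : checkSf 3 [3, 2, 1] 2 = true := by decide +kernel

set_option maxRecDepth 100000 in
theorem c222_12 : checkSf 4 [1, 1, 3, 1] 2 = true := by decide +kernel

set_option maxRecDepth 100000 in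
theorem c222_13 : checkSf 3 [2, 3, 1] 2 = true := by decide +kernel

set_option maxRecDepth 100000 in
theorem c222_14 : checkSf 3 [1, 4, 1] 2 = true := by decide +kernel

set_option maxRecDepth 100000 in
theorem c222_15 : checkSf 2 [5, 1] 2 = true := by decide +kernel

set_option maxRecDepth 100000 in
theorem c222_16 : checkSf 5 [1, 1, 1, 1, 2] 2 = true := by decide +kernel

set_option maxRecDepth 100000 in
theorem c222_17 : checkSf 4 [2, 1, 1, 2] 2 = true := by decide +kernel

set_option maxRecDepth 100000 in
theorem c222_18 : checkSf 4 [1, 2, 1, 2] 2 = true := by decide +kernel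

set_option maxRecDepth 100000 in
theorem c222_19 : checkSf 3 [3, 1, 2] 2 = true := by decide +kernel

set_option maxRecDepth 100000 in
theorem c222_20 : checkSf 4 [1, 1, 2, 2] 2 = true := by decide +kernel

set_option maxRecDepth 100000 in
theorem c222_21 : checkSf 3 [2, 2, 2] 2 = true := by decide +kernel

set_option maxRecDepth 100000 in
theorem c222_22 : checkSf 3 [1, 3, 2] 2 = true := by decide +kernel

set_option maxRecDepth 100000 in
theorem c222_23 : checkSf 2 [4, 2] 2 = true := by decide +kernel

set_option maxRecDepth 100000 in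
theorem c222_24 : checkSf 4 [1, 1, 1, 3] 2 = true := by decide +kernel

set_option maxRecDepth 100000 in
theorem c222_25 : checkSf 3 [2, 1, 3] 2 = true := by decide +kernel

set_option maxRecDepth 100000 in
theorem c222_26 : checkSf 3 [1, 2, 3] 2 = true := by decide +kernel

set_option maxRecDepth 100000 in
theorem c222_27 : checkSf 2 [3, 3] 2 = true := by decide +kernel

set_option maxRecDepth 100000 in
theorem c222_28 : checkSf 3 [1, 1, 4] 2 = true := by decide +kernel

set_option maxRecDepth 100000 in
theorem c222_29 : checkSf 2 [2, 4] 2 = true := by decide +kernel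

set_option maxRecDepth 100000 in
theorem c222_30 : checkSf 2 [1, 5] 2 = true := by decide +kernel

set_option maxRecDepth 100000 in
theorem c222_31 : checkSf 1 [6] 2 = true := by decide +kernel

theorem all222 : ∀ l ∈ comps 6, checkSf l.length l 2 = true := by
  intro l hl
  have h : comps 6 = [[1, 1, 1, 1, 1, 1], [2, 1, 1, 1, 1], [1, 2, 1, 1, 1], [3, 1, 1, 1], [1, 1, 2, 1, 1], [2, 2, 1, 1], [1, 3, 1, 1], [4, 1, 1], [1, 1, 1, 2, 1], [2, 1, 2, 1], [1, 2, 2, 1], [3, 2, 1], [1, 1, 3, 1], [2, 3, 1], [1, 4, 1], [5, 1], [1, 1, 1, 1, 2], [2, 1, 1, 2], [1, 2, 1, 2], [3, 1, 2], [1, 1, 2, 2], [2, 2, 2], [1, 3, 2], [4, 2], [1, 1, 1, 3], [2, 1, 3], [1, 2, 3], [3, 3], [1, 1, 4], [2, 4], [1, 5], [6]] := by decide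
  rw [h] at hl
  simp only [List.mem_cons, List.not_mem_nil, or_false] at hl
  rcases hl with rfl | rfl | rfl | rfl | rfl | rfl | rfl | rfl | rfl | rfl | rfl | rfl | rfl | rfl | rfl | rfl | rfl | rfl | rfl | rfl | rfl | rfl | rfl | rfl | rfl | rfl | rfl | rfl | rfl | rfl | rfl | rfl
  · exact c222_0
  · exact c222_1
  · exact c222_2
  · exact c222_3
  · exact c222_4
  · exact c222_5
  · exact c222_6
  · exact c222_7
  · exact c222_8
  · exact c222_9
  · exact c222_10
  · exact c222_11
  · exact c222_12
  · exact c222_13
  · exact c222_14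
  · exact c222_15
  · exact c222_16
  · exact c222_17
  · exact c222_18
  · exact c222_19
  · exact c222_20
  · exact c222_21
  · exact c222_22
  · exact c222_23
  · exact c222_24
  · exact c222_25
  · exact c222_26
  · exact c222_27
  · exact c222_28
  · exact c222_29
  · exact c222_30
  · exact c222_31

end Vale.Agent.Lib.P328
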